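import Vale.Agent.P266.LZ.E6

/-!
# P266: the Lipman-Zariski conjecture is false

There is a finitely generated normal complex domain of dimension two whose module of derivations
is free of rank two and which is not regular.
-/

namespace Vale.Agent.Results.P266.LipmanZariskiFalse

/-- A normal complex affine surface with free tangent sheaf that is not regular (not smooth). -/
theorem result :
    ∃ (A : Type) (_ : CommRing A) (_ : IsDomain A) (_ : Algebra ℂ A),
      Algebra.FiniteType ℂ A ∧ IsIntegrallyClosed A ∧ ringKrullDim A = 2 ∧
      Module.Free A (Derivation ℂ A A) ∧ Module.finrank A (Derivation ℂ A A) = 2 ∧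
      ¬ IsRegularRing A ∧ ¬ Algebra.Smooth ℂ A :=
  Vale.Agent.P266.CE.exists_normal_surface Vale.Agent.P266.CE.M.main

end Vale.Agent.Results.P266.LipmanZariskiFalse
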